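import Vale.Agent.P037.Assemble

namespace Vale.Agent.Results.P037.Disproof

open Vale.Agent.P037

/-- The polynomial ordered binary matrix-removal conjecture is false. -/
theorem result :
    ∃ (k : ℕ) (H : Fin k → Fin k → Bool), ∀ c C : ℝ, 0 < c → 0 < C →
      ∃ (n : ℕ) (ε : ℝ) (A : Fin n → Fin n → Bool), 1 ≤ n ∧ 0 < ε ∧ ε < 1 ∧
        ε ≤ distFree H A ∧ (numCopies H A : ℝ) < c * ε ^ C * (n : ℝ) ^ (2 * k) :=
  ⟨7, H7, no_polynomial_bound⟩

end Vale.Agent.Results.P037.Disproof
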